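import Vale.Agent.Egypt2.Base
import Vale.Agent.Egypt.Greedy

namespace Vale.Agent.Egypt2

open Finset Vale.Agent.Egypt

lemma urep_finset {M : Finset ℕ} (h : ∀ m ∈ M, 2 ≤ m) {k : ℕ} (hk : M.card ≤ k) :
    URep k (∑ m ∈ M, (1 / m : ℚ)) :=
  ⟨M.val, hk, fun m hm => by have := h m hm; omega, rfl⟩

theorem assembleU {R G k j b a : ℕ} (hR : 1 ≤ R) (hRj : R ≤ 2 ^ (2 ^ j))
    (hG : b * 2 ^ (2 ^ (j + 1)) ≤ G) (hrep : Cov R G k) (ha : 1 ≤ a) (hab : a < b) :
    URep (j + 1 + 2 * k) ((a : ℚ) / b) := by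
  have hb0 : 0 < b := by omega
  have hbq : (0 : ℚ) < b := by exact_mod_cast hb0
  have haq : (0 : ℚ) < a := by exact_mod_cast ha
  have hx0 : (0 : ℚ) < a / b := by positivity
  have hx1 : (a : ℚ) / b < 1 := by rw [div_lt_one hbq]; exact_mod_cast hab
  obtain ⟨M, h1, h2, h3, h4, h5, h6⟩ := greedy hx0 hx1 j
  set z : ℚ := (a : ℚ) / b - ∑ m ∈ M, (1 / m : ℚ) with hz
  set m0 := ∏ m ∈ M, m with hm0
  have hm0pos : 0 < m0 := prod_pos fun m hm => by have := h2 m hm; omega
  set b' := b * m0 with hb'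
  have hb'pos : 0 < b' := Nat.mul_pos hb0 hm0pos
  have hb'G : b' ≤ G := (Nat.mul_le_mul_left b h3).trans hG
  have hGpos : 0 < G := lt_of_lt_of_le hb'pos hb'G
  -- z is a fraction with denominator b'
  obtain ⟨a', ha'⟩ : ∃ a' : ℕ, (a' : ℚ) = z * b' := by
    have hint : ∃ c : ℤ, (c : ℚ) = z * b' := by
      have e1 : ∀ m ∈ M, ((m0 / m : ℕ) : ℚ) = m0 * (1 / m) := by
        intro m hm
        have hdvd : m ∣ m0 := dvd_prod_of_mem _ hm
        have hmpos : (m : ℚ) ≠ 0 := by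
          have := h2 m hm
          exact_mod_cast (by omega : m ≠ 0)
        rw [Nat.cast_div hdvd hmpos]
        ring
      obtain ⟨Sg, hSg⟩ : ∃ Sg : ℕ, (Sg : ℚ) = m0 * ∑ m ∈ M, (1 / m : ℚ) := by
        refine ⟨∑ m ∈ M, m0 / m, ?_⟩
        rw [Nat.cast_sum, sum_congr rfl e1, mul_sum]
      refine ⟨(a : ℤ) * m0 - b * Sg, ?_⟩
      push_cast
      rw [hSg, hz, hb']
      push_cast
      field_simp
    obtain ⟨c, hc⟩ := hint
    have hc0 : 0 ≤ c := by
      have : (0 : ℚ) ≤ c := by rw [hc]; positivity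
      exact_mod_cast this
    refine ⟨c.toNat, ?_⟩
    rw [← hc]
    exact_mod_cast Int.toNat_of_nonneg hc0
  set N := R * G with hN
  have hNpos : 0 < N := Nat.mul_pos hR hGpos
  have hNq : (0 : ℚ) < N := by exact_mod_cast hNpos
  have hb'q : (0 : ℚ) < b' := by exact_mod_cast hb'pos
  set s := a' * N / b' with hs
  set r := a' * N % b' with hr
  have hsr : b' * s + r = a' * N := Nat.div_add_mod _ _
  have hsrq : (b' : ℚ) * s + r = z * b' * N := by
    rw [← ha']; exact_mod_cast hsr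
  have hrb : r < b' := Nat.mod_lt _ hb'pos
  have hszN : (s : ℚ) ≤ z * N := by
    have hr0 : (0 : ℚ) ≤ r := by positivity
    have : (b' : ℚ) * s ≤ b' * (z * N) := by linarith
    exact le_of_mul_le_mul_left this hb'q
  have hsG : s < G := by
    have hzR : z * R < 1 := by
      have : (R : ℚ) ≤ 2 ^ (2 ^ j) := by exact_mod_cast hRj
      calc z * R ≤ z * 2 ^ (2 ^ j) := by gcongr
        _ < 1 := h5
    have : (s : ℚ) < G := by
      have hGq : (0 : ℚ) < G := by exact_mod_cast hGpos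
      calc (s : ℚ) ≤ z * N := hszN
        _ = (z * R) * G := by rw [hN]; push_cast; ring
        _ < 1 * G := by gcongr
        _ = G := one_mul _
    exact_mod_cast this
  have u1 := hrep s hsG
  have u2 := urep_div hb'pos (hrep r (lt_of_lt_of_le hrb hb'G))
  have u3 := urep_add (urep_finset h2 h1) (urep_add u1 u2)
  refine urep_mono (k := j + 1 + (k + k)) (by omega) ?_
  convert u3 using 1
  have e1 : (s : ℚ) / ((R : ℚ) * G) + (r : ℚ) / ((R : ℚ) * G) / b' = z := by
    have hNc : (R : ℚ) * G = N := by rw [hN]; push_cast; ring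
    rw [hNc]
    field_simp
    linarith
  rw [e1, hz]; ring

end Vale.Agent.Egypt2
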