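import Vale.Agent.Egypt.GoodPrime

namespace Vale.Agent.Egypt2

open Finset Vale.Agent.Egypt

/-- `x` is a sum of at most `k` unit fractions, repetitions allowed. -/
def URep (k : ℕ) (x : ℚ) : Prop :=
  ∃ s : Multiset ℕ, s.card ≤ k ∧ (∀ m ∈ s, 0 < m) ∧ (s.map (fun m : ℕ => (1 : ℚ) / m)).sum = x

/-- Every `n < G` has `n / (R G)` a short sum of unit fractions. -/
def Cov (R G k : ℕ) : Prop := ∀ n < G, URep k ((n : ℚ) / ((R : ℚ) * G))

/-- A pool of `2 ^ L` primes, all at most `2 ^ (3 L)`. -/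
def Pool (L : ℕ) (P : Finset ℕ) : Prop :=
  P.card = 2 ^ L ∧ ∀ p ∈ P, p.Prime ∧ p ≤ 2 ^ (3 * L)

/-- `q` is a good prime for the pool `P` at level `2 ^ j`. -/
def Good (L j : ℕ) (P : Finset ℕ) (q : ℕ) : Prop :=
  q.Prime ∧ q ∉ P ∧ 16 * q ^ 3 < ((2 ^ L).choose (2 ^ j)) ^ 4 ∧
    (2 ^ L).choose (2 ^ j) ≤
      2 * ((P.powersetCard (2 ^ j)).image (fun A => ((prd A : ℕ) : ZMod q))).card

lemma urep_zero (k : ℕ) : URep k 0 := ⟨0, by simp, by simp, by simp⟩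

lemma urep_mono {k l : ℕ} {x : ℚ} (hkl : k ≤ l) (h : URep k x) : URep l x := by
  obtain ⟨s, h1, h2, h3⟩ := h
  exact ⟨s, h1.trans hkl, h2, h3⟩

lemma urep_one {m : ℕ} (hm : 0 < m) : URep 1 ((1 : ℚ) / m) :=
  ⟨{m}, by simp, by simpa using hm, by simp⟩

lemma urep_add {k l : ℕ} {x y : ℚ} (h : URep k x) (h' : URep l y) : URep (k + l) (x + y) := by
  obtain ⟨s, h1, h2, h3⟩ := h
  obtain ⟨t, g1, g2, g3⟩ := h'
  refine ⟨s + t, ?_, ?_, ?_⟩
  · rw [Multiset.card_add]; omega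
  · intro m hm
    rcases Multiset.mem_add.1 hm with h | h
    · exact h2 m h
    · exact g2 m h
  · rw [Multiset.map_add, Multiset.sum_add, h3, g3]

lemma urep_div {k M : ℕ} {x : ℚ} (hM : 0 < M) (h : URep k x) : URep k (x / M) := by
  obtain ⟨s, h1, h2, h3⟩ := h
  refine ⟨s.map (fun m => m * M), ?_, ?_, ?_⟩
  · rw [Multiset.card_map]; exact h1
  · intro m hm
    obtain ⟨a, ha, rfl⟩ := Multiset.mem_map.1 hm
    exact Nat.mul_pos (h2 a ha) hM
  · rw [Multiset.map_map, ← h3, div_eq_mul_inv, ← Multiset.sum_map_mul_right]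
    congr 1
    refine Multiset.map_congr rfl fun m hm => ?_
    simp only [Function.comp]
    push_cast
    rw [one_div, mul_inv, one_div]

end Vale.Agent.Egypt2
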