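import Vale.Agent.Egypt2.CoverU

namespace Vale.Agent.Egypt2

open Finset Vale.Agent.Egypt

/-- the property of the prime `Q` proved in part D -/
def CovStep (R Q Lam : ℕ) : Prop :=
  ∀ n : ℕ, ∃ A : ℕ, A ≤ Lam ∧ A % Q = n % Q ∧ URep 9 ((A : ℚ) / R)

lemma cov_double {R G k : ℕ} (hR : 0 < R) (hG : 0 < G) (h : Cov R G k) : Cov R (2 * G) (k + 1) := by
  intro n hn
  have h1 := h (n / 2) (by omega)
  have h2 := urep_div (M := 1) one_pos h1
  have hR' : (R : ℚ) ≠ 0 := by exact_mod_cast hR.ne'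
  have hG' : (G : ℚ) ≠ 0 := by exact_mod_cast hG.ne'
  have hn2 : (n : ℚ) = 2 * ((n / 2 : ℕ) : ℚ) + ((n % 2 : ℕ) : ℚ) := by
    exact_mod_cast (Nat.div_add_mod n 2).symm
  rcases Nat.mod_two_eq_zero_or_one n with h0 | h0
  · have e : (n : ℚ) / ((R : ℚ) * ((2 * G : ℕ) : ℚ)) = ((n / 2 : ℕ) : ℚ) / ((R : ℚ) * G) := by
      rw [hn2, h0]
      push_cast
      field_simp
      ring
    rw [e]
    exact urep_mono (by omega) h1
  · have e : (n : ℚ) / ((R : ℚ) * ((2 * G : ℕ) : ℚ)) =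
        ((n / 2 : ℕ) : ℚ) / ((R : ℚ) * G) + (1 : ℚ) / ((R * (2 * G) : ℕ) : ℚ) := by
      rw [hn2, h0]
      push_cast
      field_simp
    rw [e]
    exact urep_add h1 (urep_one (by positivity))

lemma cov_pow_two {R : ℕ} (hR : 0 < R) (m : ℕ) : Cov R (2 ^ m) m := by
  induction m with
  | zero =>
    intro n hn
    have : n = 0 := by simpa using hn
    subst this
    simpa using urep_zero 0
  | succ m ih =>
    rw [pow_succ']
    exact cov_double hR (by positivity) ih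

lemma cov_step {R G k Q Lam : ℕ} (hR : 0 < R) (h : Cov R G k) (hQ : 0 < Q) (hG : 0 < G)
    (hLam : Lam ≤ G) (hc : CovStep R Q Lam) : Cov R (G * Q) (k + 9) := by
  intro n hn
  have hR' : (R : ℚ) ≠ 0 := by exact_mod_cast hR.ne'
  have hG' : (G : ℚ) ≠ 0 := by exact_mod_cast hG.ne'
  have hQ' : (Q : ℚ) ≠ 0 := by exact_mod_cast hQ.ne'
  obtain ⟨A, hA1, hA2, hA3⟩ := hc n
  rcases lt_or_ge n A with hnA | hnA
  · have h1 := urep_div hQ (h n (by omega))
    have e : (n : ℚ) / ((R : ℚ) * ((G * Q : ℕ) : ℚ)) = (n : ℚ) / ((R : ℚ) * G) / Q := by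
      push_cast
      field_simp
    rw [e]
    exact urep_mono (by omega) h1
  · have hdvd : Q ∣ n - A := (Nat.modEq_iff_dvd' hnA).1 hA2
    obtain ⟨n', hn'⟩ := hdvd
    have hn'G : n' < G := by
      have h1 : Q * n' ≤ n := by omega
      have h2 : Q * n' < Q * G := by
        calc Q * n' ≤ n := h1
          _ < G * Q := hn
          _ = Q * G := by ring
      exact lt_of_mul_lt_mul_left h2 (Nat.zero_le _)
    have hnn : (n : ℚ) = A + Q * n' := by
      have : n = A + Q * n' := by omega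
      exact_mod_cast this
    have h1 := h n' hn'G
    have h2 := urep_div (Nat.mul_pos hG hQ) hA3
    have e : (n : ℚ) / ((R : ℚ) * ((G * Q : ℕ) : ℚ)) =
        (n' : ℚ) / ((R : ℚ) * G) + (A : ℚ) / R / ((G * Q : ℕ) : ℚ) := by
      rw [hnn]
      push_cast
      field_simp
      ring
    rw [e]
    exact urep_add h1 h2

lemma choose_sq {t u : ℕ} : t.choose (2 * u) ≤ (t.choose u) ^ 2 := by
  rcases le_or_gt (2 * u) t with h | h
  · have h1 : t.choose (2 * u) * (2 * u).choose u = t.choose u * (t - u).choose (2 * u - u) :=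
      Nat.choose_mul (by omega : u ≤ 2 * u)
    have h2 : 2 * u - u = u := by omega
    rw [h2] at h1
    have h3 : 1 ≤ (2 * u).choose u := Nat.choose_pos (by omega)
    calc t.choose (2 * u) ≤ t.choose (2 * u) * (2 * u).choose u := Nat.le_mul_of_pos_right _ h3
      _ = t.choose u * (t - u).choose u := h1
      _ ≤ t.choose u * t.choose u := Nat.mul_le_mul_left _ (Nat.choose_le_choose u (by omega))
      _ = (t.choose u) ^ 2 := by ring
  · rw [Nat.choose_eq_zero_of_lt h]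
    exact Nat.zero_le _

/-- the chain, from the covering property `hcov` of part D -/
theorem chain_of {L R : ℕ} (hL : 100 ≤ L) (hR : 0 < R)
    (hcov : ∀ j, 4 ≤ j → j < L → ∃ Q : ℕ, (2 ^ L).choose (2 ^ j) < Q ∧
      CovStep R Q (2 ^ (12 * L + 1) * ((2 ^ L).choose (2 ^ j)) ^ 2)) (i : ℕ) :
    ∃ G : ℕ, 2 ^ (i * 2 ^ (L - 1)) ≤ G ∧ Cov R G (63 * L + 9 * i) := by
  set K : ℕ → ℕ := fun j => (2 ^ L).choose (2 ^ j) with hK
  have hKpos : ∀ j, j ≤ L → 1 ≤ K j := fun j hj =>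
    Nat.choose_pos (Nat.pow_le_pow_right (by norm_num) hj)
  -- levels
  have main : ∀ m, 4 + m ≤ L → ∃ G : ℕ, 2 ^ (12 * L + 1) * (K (4 + m)) ^ 2 ≤ G ∧
      Cov R G (44 * L + 1 + 18 * m) := by
    intro m
    induction m with
    | zero =>
      intro _
      refine ⟨2 ^ (44 * L + 1), ?_, by simpa using cov_pow_two hR (44 * L + 1)⟩
      have h1 : K 4 ≤ (2 ^ L) ^ 16 := by
        have := Nat.choose_le_pow (2 ^ L) (2 ^ 4)
        simpa [hK] using this
      calc 2 ^ (12 * L + 1) * (K (4 + 0)) ^ 2 ≤ 2 ^ (12 * L + 1) * ((2 ^ L) ^ 16) ^ 2 := by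
            gcongr
        _ = 2 ^ (44 * L + 1) := by
            rw [← pow_mul, ← pow_mul, ← pow_add]
            congr 1
            ring
    | succ m ih =>
      intro hm
      obtain ⟨G, hG, hrep⟩ := ih (by omega)
      obtain ⟨Q, hQ, hc⟩ := hcov (4 + m) (by omega) (by omega)
      have hKm := hKpos (4 + m) (by omega)
      have hQpos : 0 < Q := by
        have : K (4 + m) < Q := hQ
        omega
      have hGpos : 0 < G := lt_of_lt_of_le (by positivity) hG
      have hc' : CovStep R Q (2 ^ (12 * L + 1) * (K (4 + m)) ^ 2) := hc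
      have s1 := cov_step hR hrep hQpos hGpos hG hc'
      have hG2 : 2 ^ (12 * L + 1) * (K (4 + m)) ^ 2 ≤ G * Q :=
        hG.trans (Nat.le_mul_of_pos_right _ hQpos)
      have s2 := cov_step hR s1 hQpos (Nat.mul_pos hGpos hQpos) hG2 hc'
      refine ⟨G * Q * Q, ?_, ?_⟩
      · have hKsq : K (4 + (m + 1)) ≤ (K (4 + m)) ^ 2 := by
          have := choose_sq (t := 2 ^ L) (u := 2 ^ (4 + m))
          have e : 2 * 2 ^ (4 + m) = 2 ^ (4 + (m + 1)) := by
            rw [← pow_succ']; congr 1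
          rw [e] at this
          exact this
        have hQK : K (4 + m) ≤ Q := hQ.le
        calc 2 ^ (12 * L + 1) * (K (4 + (m + 1))) ^ 2
            ≤ 2 ^ (12 * L + 1) * ((K (4 + m)) ^ 2) ^ 2 := by gcongr
          _ = (2 ^ (12 * L + 1) * (K (4 + m)) ^ 2) * K (4 + m) * K (4 + m) := by ring
          _ ≤ G * Q * Q := by gcongr
      · convert s2 using 1
        ring
  obtain ⟨m, rfl⟩ : ∃ m, L = 4 + m + 1 := ⟨L - 5, by omega⟩
  obtain ⟨G, hG, hrep⟩ := main m (by omega)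
  obtain ⟨Q, hQ, hc⟩ := hcov (4 + m) (by omega) (by omega)
  have hKm := hKpos (4 + m) (by omega)
  have hQpos : 0 < Q := by
    have : K (4 + m) < Q := hQ
    omega
  have hGpos : 0 < G := lt_of_lt_of_le (by positivity) hG
  have hK1 : 2 ^ (2 ^ (4 + m)) ≤ K (4 + m) := by
    have := (level_K (L := 4 + m + 1) (j := 4 + m) (by omega)).1
    have e : (4 + m + 1 - (4 + m)) * 2 ^ (4 + m) = 2 ^ (4 + m) := by
      rw [show 4 + m + 1 - (4 + m) = 1 by omega, one_mul]
    rw [e] at this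
    exact this
  have e1 : 4 + m + 1 - 1 = 4 + m := by omega
  have fin : ∀ i, ∃ G' : ℕ, 2 ^ (i * 2 ^ (4 + m)) ≤ G' ∧
      2 ^ (12 * (4 + m + 1) + 1) * (K (4 + m)) ^ 2 ≤ G' ∧
      Cov R G' (44 * (4 + m + 1) + 1 + 18 * m + 9 * i) := by
    intro i
    induction i with
    | zero =>
      refine ⟨G, ?_, hG, by simpa using hrep⟩
      simp only [Nat.zero_mul, pow_zero]
      exact hGpos
    | succ i ih =>
      obtain ⟨G', h1, h2, h3⟩ := ih
      have hG'pos : 0 < G' := lt_of_lt_of_le (by positivity) h1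
      refine ⟨G' * Q, ?_, h2.trans (Nat.le_mul_of_pos_right _ hQpos), ?_⟩
      · have hQ2 : 2 ^ (2 ^ (4 + m)) ≤ Q := hK1.trans hQ.le
        calc 2 ^ ((i + 1) * 2 ^ (4 + m)) = 2 ^ (i * 2 ^ (4 + m)) * 2 ^ (2 ^ (4 + m)) := by
              rw [← pow_add]; congr 1; ring
          _ ≤ G' * Q := Nat.mul_le_mul h1 hQ2
      · have := cov_step hR h3 hQpos hG'pos h2 hc
        convert this using 1
        ring
  obtain ⟨G', h1, -, h3⟩ := fin i
  rw [e1]
  refine ⟨G', h1, fun n hn => urep_mono ?_ (h3 n hn)⟩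
  omega

theorem chainU {L : ℕ} {P : Finset ℕ} (hL : 100 ≤ L) (hP : Pool L P) (i : ℕ) :
    ∃ G : ℕ, 2 ^ (i * 2 ^ (L - 1)) ≤ G ∧ Cov (prd P ^ 5) G (63 * L + 9 * i) := by
  have hR : 0 < prd P ^ 5 := pow_pos (prd_pos fun p hp => (hP.2 p hp).1) 5
  refine chain_of hL hR (fun j hj4 hj => ?_) i
  obtain ⟨Q, h1, h2⟩ := cover hL hj4 hj hP
  refine ⟨Q, h1, fun n => ?_⟩
  obtain ⟨A, a1, a2, a3⟩ := h2 n
  refine ⟨A, a1, a2, ?_⟩
  push_cast
  exact a3

end Vale.Agent.Egypt2
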