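import Mathlib

namespace Vale.Agent.Egypt2

open Finset

section

variable {q : ℕ} [Fact q.Prime]

lemma lineU_card (y : ZMod q × ZMod q) (c : ZMod q) :
    (univ.filter (fun x : ZMod q × ZMod q => y.1 * x.1 + y.2 + x.2 = c)).card = q := by
  have h : (univ.filter (fun x : ZMod q × ZMod q => y.1 * x.1 + y.2 + x.2 = c)) =
      univ.image (fun s : ZMod q => (s, c - y.2 - y.1 * s)) := by
    ext ⟨x1, x2⟩
    simp only [mem_filter, mem_univ, true_and, mem_image, Prod.mk.injEq]
    constructor
    · intro h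
      exact ⟨x1, rfl, by linear_combination -h⟩
    · rintro ⟨s, rfl, h1⟩
      linear_combination -h1
  rw [h, card_image_of_injective _ (fun s s' hs => (Prod.mk.inj hs).1), card_univ, ZMod.card]

lemma lineU_inter {y y' : ZMod q × ZMod q} (hyy : y ≠ y') (c : ZMod q) :
    (univ.filter (fun x : ZMod q × ZMod q => y.1 * x.1 + y.2 + x.2 = c ∧
      y'.1 * x.1 + y'.2 + x.2 = c)).card ≤ 1 := by
  rw [card_le_one]
  rintro ⟨a, b⟩ h ⟨a', b'⟩ h'
  simp only [mem_filter, mem_univ, true_and] at h h'
  obtain ⟨h1, h2⟩ := h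
  obtain ⟨h3, h4⟩ := h'
  obtain ⟨y1, y2⟩ := y
  obtain ⟨z1, z2⟩ := y'
  simp only at h1 h2 h3 h4
  have e1 : (y1 - z1) * (a - a') = 0 := by linear_combination h1 - h2 - h3 + h4
  rcases mul_eq_zero.1 e1 with h5 | h5
  · exfalso
    apply hyy
    have h6 : y1 = z1 := sub_eq_zero.1 h5
    subst h6
    have h7 : y2 = z2 := by linear_combination h1 - h2
    rw [h7]
  · have h6 : a = a' := sub_eq_zero.1 h5
    subst h6
    have h7 : b = b' := by linear_combination h1 - h3
    rw [h7]

theorem point_line (S1 S2 S3 T : Finset (ZMod q))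
    (h : q ^ 3 < (S1.card * S2.card) * (S3.card * T.card)) (c : ZMod q) :
    ∃ s1 ∈ S1, ∃ s2 ∈ S2, ∃ s3 ∈ S3, ∃ t ∈ T, s1 * t + s2 + s3 = c := by
  by_contra hcon
  push Not at hcon
  set F : Finset (ZMod q × ZMod q) := S1 ×ˢ S2 with hF
  set E : Finset (ZMod q × ZMod q) := T ×ˢ S3 with hE
  have hFc : F.card = S1.card * S2.card := card_product _ _
  have hEc : E.card = T.card * S3.card := card_product _ _
  set N : ZMod q × ZMod q → ℕ := fun x =>
    (F.filter (fun y => y.1 * x.1 + y.2 + x.2 = c)).card with hN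
  have hq0 : 0 < q := (Fact.out : q.Prime).pos
  -- first moment
  have m1 : ∑ x, (N x : ℤ) = F.card * q := by
    have : ∑ x, N x = F.card * q := by
      simp only [hN, card_filter]
      rw [sum_comm]
      rw [card_eq_sum_ones, sum_mul]
      refine sum_congr rfl fun y hy => ?_
      have h5 := lineU_card y c
      rw [card_filter] at h5
      rw [one_mul]
      exact h5
    exact_mod_cast this
  -- second moment
  have m2 : ∑ x, (N x : ℤ) ^ 2 ≤ F.card * q + F.card ^ 2 := by
    have h1 : ∀ x, N x ^ 2 = ∑ y ∈ F, ∑ y' ∈ F,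
        (if y.1 * x.1 + y.2 + x.2 = c ∧ y'.1 * x.1 + y'.2 + x.2 = c then 1 else 0) := by
      intro x
      simp only [hN, card_filter, sq]
      rw [sum_mul_sum]
      refine sum_congr rfl fun y _ => sum_congr rfl fun y' _ => ?_
      by_cases a : y.1 * x.1 + y.2 + x.2 = c <;> by_cases b : y'.1 * x.1 + y'.2 + x.2 = c <;>
        simp [a, b]
    have h2 : ∑ x, N x ^ 2 ≤ F.card * q + F.card ^ 2 := by
      simp_rw [h1]
      rw [sum_comm]
      have h3 : ∀ y ∈ F, ∑ x : ZMod q × ZMod q, ∑ y' ∈ F,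
          (if y.1 * x.1 + y.2 + x.2 = c ∧ y'.1 * x.1 + y'.2 + x.2 = c then 1 else 0) ≤
          q + F.card := by
        intro y hy
        rw [sum_comm]
        have h4 : ∀ y' ∈ F, ∑ x : ZMod q × ZMod q,
            (if y.1 * x.1 + y.2 + x.2 = c ∧ y'.1 * x.1 + y'.2 + x.2 = c then 1 else 0) ≤
            (if y' = y then q else 0) + 1 := by
          intro y' _
          rw [← card_filter]
          by_cases hyy : y' = y
          · rw [if_pos hyy, hyy]
            have : (univ.filter (fun x : ZMod q × ZMod q => y.1 * x.1 + y.2 + x.2 = c ∧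
                y.1 * x.1 + y.2 + x.2 = c)).card = q := by
              simp only [and_self]
              exact lineU_card y c
            rw [this]; omega
          · rw [if_neg hyy, zero_add]
            exact lineU_inter (fun h => hyy h.symm) c
        refine (sum_le_sum h4).trans ?_
        rw [sum_add_distrib, sum_ite_eq' F y, if_pos hy]
        simp
      refine (sum_le_sum h3).trans ?_
      rw [sum_const, smul_eq_mul]
      nlinarith
    exact_mod_cast h2
  -- variance
  have hvar : ∑ x, ((q : ℤ) * N x - F.card) ^ 2 ≤ (q : ℤ) ^ 3 * F.card := by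
    have e : ∀ x, ((q : ℤ) * N x - F.card) ^ 2 =
        (q : ℤ) ^ 2 * (N x : ℤ) ^ 2 - 2 * q * F.card * N x + (F.card : ℤ) ^ 2 := fun x => by ring
    simp_rw [e]
    rw [sum_add_distrib, sum_sub_distrib, ← mul_sum, ← mul_sum, m1, sum_const, card_univ,
      Fintype.card_prod, ZMod.card, nsmul_eq_mul]
    push_cast
    have hq2 : (0 : ℤ) ≤ (q : ℤ) ^ 2 := by positivity
    nlinarith [mul_le_mul_of_nonneg_left m2 hq2]
  have hEsum : ∑ x ∈ E, ((q : ℤ) * N x - F.card) ^ 2 = E.card * (F.card : ℤ) ^ 2 := by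
    have : ∀ x ∈ E, ((q : ℤ) * N x - F.card) ^ 2 = (F.card : ℤ) ^ 2 := by
      intro x hx
      have hz : N x = 0 := by
        simp only [hN]
        rw [card_eq_zero, filter_eq_empty_iff]
        intro y hy hxy
        rw [hF, mem_product] at hy
        rw [hE, mem_product] at hx
        exact hcon y.1 hy.1 y.2 hy.2 x.2 hx.2 x.1 hx.1 hxy
      rw [hz]; push_cast; ring
    rw [sum_congr rfl this, sum_const, nsmul_eq_mul]
  have hle : (E.card : ℤ) * (F.card : ℤ) ^ 2 ≤ (q : ℤ) ^ 3 * F.card := by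
    rw [← hEsum]
    exact (sum_le_univ_sum_of_nonneg fun x => sq_nonneg _).trans hvar
  have hFpos : (0 : ℤ) < F.card := by
    rcases Nat.eq_zero_or_pos F.card with h0 | h0
    · rw [← hFc, h0] at h; simp at h
    · exact_mod_cast h0
  have hfin : (E.card : ℤ) * F.card ≤ (q : ℤ) ^ 3 := by
    have : ((E.card : ℤ) * F.card) * F.card ≤ (q : ℤ) ^ 3 * F.card := by
      calc ((E.card : ℤ) * F.card) * F.card = (E.card : ℤ) * (F.card : ℤ) ^ 2 := by ring
        _ ≤ _ := hle
    exact le_of_mul_le_mul_right this hFpos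
  have h2 : q ^ 3 < F.card * E.card := by rw [hFc, hEc, mul_comm T.card]; exact h
  have h' : ((q : ℤ)) ^ 3 < (F.card : ℤ) * E.card := by exact_mod_cast h2
  linarith [mul_comm (F.card : ℤ) (E.card : ℤ)]

end

end Vale.Agent.Egypt2
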