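import Vale.Agent.Egypt2.Many
import Vale.Agent.Egypt2.Vinh

namespace Vale.Agent.Egypt2

open Finset Vale.Agent.Egypt

lemma cast_injOn {Q : ℕ} {S : Set ℕ} (h : ∀ q ∈ S, q < Q) :
    Set.InjOn (fun q : ℕ => (q : ZMod Q)) S := by
  intro a ha b hb hab
  have h1 := (ZMod.natCast_eq_natCast_iff a b Q).1 hab
  exact Nat.ModEq.eq_of_lt_of_lt h1 (h a ha) (h b hb)

lemma level_big {L j : ℕ} (hL : 100 ≤ L) (hj4 : 4 ≤ j) (hj : j < L) :
    2 ^ (12 * L) < (2 ^ L).choose (2 ^ j) := by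
  refine lt_of_lt_of_le (Nat.pow_lt_pow_right (by norm_num) ?_) (level_K hj).1
  obtain ⟨i, rfl⟩ : ∃ i, j = 4 + i := ⟨j - 4, by omega⟩
  obtain ⟨m, rfl⟩ : ∃ m, L = 4 + i + 1 + m := ⟨L - (4 + i + 1), by omega⟩
  have h1 : 4 + i + 1 + m - (4 + i) = m + 1 := by omega
  rw [h1, pow_add]
  have h2 : i + 1 ≤ 2 ^ i := Nat.lt_two_pow_self
  have h3 : (m + 1) * (2 ^ 4 * (i + 1)) ≤ (m + 1) * (2 ^ 4 * 2 ^ i) := by gcongr
  nlinarith

theorem cover {L j : ℕ} {P : Finset ℕ} (hL : 100 ≤ L) (hj4 : 4 ≤ j) (hj : j < L)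
    (hP : Pool L P) :
    ∃ Q : ℕ, (2 ^ L).choose (2 ^ j) < Q ∧ ∀ n : ℕ, ∃ A : ℕ,
      A ≤ 2 ^ (12 * L + 1) * ((2 ^ L).choose (2 ^ j)) ^ 2 ∧ A % Q = n % Q ∧
      URep 9 ((A : ℚ) / (prd P : ℚ) ^ 5) := by
  obtain ⟨X, S, hX1, hX2, hXS, hS⟩ := many_good hL hj hP
  have hbigK := level_big hL hj4 hj
  obtain ⟨K, hK⟩ : ∃ K, K = (2 ^ L).choose (2 ^ j) := ⟨_, rfl⟩
  rw [← hK] at hX1 hX2 hbigK ⊢
  have hX0 : X ≠ 0 := (lt_of_lt_of_le (Nat.zero_lt_of_lt hbigK) hX1).ne'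
  obtain ⟨Q, hQ, hXQ, hQ2⟩ := Nat.exists_prime_lt_and_le_two_mul X hX0
  have hfact : Fact Q.Prime := ⟨hQ⟩
  have hPp : ∀ p ∈ P, p.Prime := fun p hp => (hP.2 p hp).1
  have hle4 : ∀ A ∈ P.powersetCard 4, prd A ≤ 2 ^ (12 * L) := by
    intro A hA
    rw [mem_powersetCard] at hA
    have h1 : prd A ≤ (2 ^ (3 * L)) ^ 4 := prd_le (fun p hp => (hP.2 p (hA.1 hp)).2) hA.2
    rw [← pow_mul] at h1
    exact h1.trans (le_of_eq (by congr 1; ring))
  set S' : Finset (ZMod Q) := S.image (fun q : ℕ => (q : ZMod Q)) with hS'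
  set T : Finset (ZMod Q) := (P.powersetCard 4).image (fun A => ((prd A : ℕ) : ZMod Q)) with hT
  have hS'c : S'.card = S.card :=
    card_image_of_injOn (cast_injOn fun q hq => lt_of_le_of_lt (hS q hq).2 hXQ)
  have hTc : T.card = (2 ^ L).choose 4 := by
    rw [← hP.1, ← card_powersetCard, hT]
    refine card_image_of_injOn ?_
    intro A hA B hB hAB
    have h1 := (ZMod.natCast_eq_natCast_iff _ _ Q).1 hAB
    have hA' := hle4 A hA
    have hB' := hle4 B hB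
    have h2 := Nat.ModEq.eq_of_lt_of_lt h1 (by omega) (by omega)
    rw [mem_coe, mem_powersetCard] at hA hB
    exact prd_inj (fun p hp => hPp p (hA.1 hp)) (fun p hp => hPp p (hB.1 hp)) h2
  have hTbig : 2 ^ (3 * L + 10) ≤ T.card := by
    rw [hTc]
    have h1 := pow_le_choose_mul (2 ^ (L - 2)) 4
    have h2 : 2 ^ (L - 2) * 4 = 2 ^ L := by
      have : (4 : ℕ) = 2 ^ 2 := by norm_num
      rw [this, ← pow_add]; congr 1; omega
    rw [h2, ← pow_mul] at h1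
    refine le_trans (Nat.pow_le_pow_right (by norm_num) ?_) h1
    omega
  have hS0 : 0 < S.card := by
    rcases Nat.eq_zero_or_pos S.card with h0 | h0
    · rw [h0] at hXS; omega
    · exact h0
  have hbig : Q ^ 3 < (S'.card * S'.card) * (S'.card * T.card) := by
    rw [hS'c]
    have h1 : Q ≤ 2 ^ (L + 3) * S.card := by
      calc Q ≤ 2 * X := hQ2
        _ ≤ 2 * (2 ^ (L + 2) * S.card) := Nat.mul_le_mul_left _ hXS
        _ = 2 ^ (L + 3) * S.card := by rw [pow_succ]; ring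
    calc Q ^ 3 ≤ (2 ^ (L + 3) * S.card) ^ 3 := Nat.pow_le_pow_left h1 3
      _ = 2 ^ (3 * L + 9) * S.card ^ 3 := by rw [mul_pow, ← pow_mul]; congr 2; ring
      _ < 2 ^ (3 * L + 10) * S.card ^ 3 := by
          have : 2 ^ (3 * L + 9) < 2 ^ (3 * L + 10) := Nat.pow_lt_pow_right (by norm_num) (by omega)
          exact Nat.mul_lt_mul_of_pos_right this (by positivity)
      _ ≤ T.card * S.card ^ 3 := Nat.mul_le_mul_right _ hTbig
      _ = _ := by ring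
  refine ⟨Q, lt_of_le_of_lt hX1 hXQ, fun n => ?_⟩
  obtain ⟨s1, hs1, s2, hs2, s3, hs3, t, ht, heq⟩ := point_line S' S' S' T hbig (n : ZMod Q)
  rw [hS', mem_image] at hs1 hs2 hs3
  rw [hT, mem_image] at ht
  obtain ⟨q1, hq1, rfl⟩ := hs1
  obtain ⟨q2, hq2, rfl⟩ := hs2
  obtain ⟨q3, hq3, rfl⟩ := hs3
  obtain ⟨A, hA, rfl⟩ := ht
  have hAle := hle4 A hA
  rw [mem_powersetCard] at hA
  refine ⟨q1 * prd A + q2 + q3, ?_, ?_, ?_⟩
  · have a1 := (hS q1 hq1).2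
    have a2 := (hS q2 hq2).2
    have a3 := (hS q3 hq3).2
    have h2 : 2 ≤ 2 ^ (12 * L) := by
      calc 2 = 2 ^ 1 := by norm_num
        _ ≤ _ := Nat.pow_le_pow_right (by norm_num) (by omega)
    calc q1 * prd A + q2 + q3 ≤ X * 2 ^ (12 * L) + X + X := by gcongr
      _ = X * 2 ^ (12 * L) + X * 2 := by ring
      _ ≤ X * 2 ^ (12 * L) + X * 2 ^ (12 * L) := by gcongr
      _ = 2 ^ (12 * L + 1) * X := by rw [pow_succ]; ring
      _ ≤ 2 ^ (12 * L + 1) * K ^ 2 := Nat.mul_le_mul_left _ hX2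
  · have : ((q1 * prd A + q2 + q3 : ℕ) : ZMod Q) = (n : ZMod Q) := by
      push_cast; exact heq
    exact (ZMod.natCast_eq_natCast_iff _ _ Q).1 this
  · have hW : 0 < prd P := prd_pos hPp
    have hdA : prd A ∣ prd P := prd_dvd_of_subset hA.1
    obtain ⟨B, hB⟩ := hdA
    have hB0 : 0 < B := by
      rcases Nat.eq_zero_or_pos B with h0 | h0
      · rw [h0] at hB; omega
      · exact h0
    have hA0 : 0 < prd A := by
      rcases Nat.eq_zero_or_pos (prd A) with h0 | h0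
      · rw [h0] at hB; omega
      · exact h0
    have h1 := urep_div hB0 (cheap hP (hS q1 hq1).1)
    have h2 := urep_div hW (cheap hP (hS q2 hq2).1)
    have h3 := urep_div hW (cheap hP (hS q3 hq3).1)
    have h4 := urep_add (urep_add h1 h2) h3
    have hWq : (prd P : ℚ) ≠ 0 := by exact_mod_cast hW.ne'
    have hBq : (B : ℚ) ≠ 0 := by exact_mod_cast hB0.ne'
    have hAq : (prd A : ℚ) ≠ 0 := by exact_mod_cast hA0.ne'
    have hBc : (prd P : ℚ) = prd A * B := by exact_mod_cast hB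
    convert h4 using 1
    push_cast
    rw [hBc]
    field_simp

end Vale.Agent.Egypt2
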