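import Vale.Agent.Egypt2.Base
import Vale.Agent.Egypt.Dedup

namespace Vale.Agent.Egypt2

open Finset Vale.Agent.Egypt

/-- **Part A.**  Repeated unit fractions can be made distinct (with denominators at least `2`)
without increasing their number, when the value is less than `1`. -/
theorem distinct {k : ℕ} {x : ℚ} (hx : x < 1) (h : URep k x) :
    ∃ T : Finset ℕ, T.card ≤ k ∧ (∀ n ∈ T, 2 ≤ n) ∧ ∑ n ∈ T, (1 / n : ℚ) = x := by
  obtain ⟨s, h1, h2, h3⟩ := h
  obtain ⟨T, g1, g2, g3⟩ := dedup hx s (fun m hm => h2 m hm) h3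
  exact ⟨T, g1.trans h1, g2, g3⟩

end Vale.Agent.Egypt2
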