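import Mathlib
import Vale.Agent.Egypt.Statement

namespace Vale.Agent.Egypt2

open Finset Vale.Agent.Egypt

/-- A sum of `n` unit fractions smaller than `p / q` stays away from `p / q`. -/
lemma gap {D : ℕ} (hD : 1 ≤ D) : ∀ n, 2 * n ≤ D → ∀ T : Finset ℕ, T.card = n →
    (∀ m ∈ T, 0 < m) → ∀ p q : ℕ, 0 < q → ∑ m ∈ T, (1 / m : ℚ) < (p : ℚ) / q →
    (1 : ℚ) / ((D : ℚ) * q) ^ (2 ^ n) ≤ (p : ℚ) / q - ∑ m ∈ T, (1 / m : ℚ) := by
  have hD' : (1 : ℚ) ≤ D := by exact_mod_cast hD
  intro n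
  induction n with
  | zero =>
    intro _ T hT _ p q hq hlt
    rw [card_eq_zero] at hT
    subst hT
    have hqq : (1 : ℚ) ≤ q := by exact_mod_cast hq
    rw [sum_empty] at hlt ⊢
    have hp : 0 < p := by
      rcases Nat.eq_zero_or_pos p with h | h
      · rw [h] at hlt; simp at hlt
      · exact h
    have hpq : (1 : ℚ) ≤ p := by exact_mod_cast hp
    rw [sub_zero, pow_zero, pow_one]
    have h1 : (1 : ℚ) / (D * q) ≤ 1 / q := by
      apply one_div_le_one_div_of_le (by linarith)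
      nlinarith
    refine h1.trans ?_
    gcongr
  | succ n ih =>
    intro hn T hT hpos p q hq hlt
    have hqq : (1 : ℚ) ≤ q := by exact_mod_cast hq
    have hnn : 0 ≤ ∑ m ∈ T, (1 / m : ℚ) := sum_nonneg fun m _ => by positivity
    have hp : 0 < p := by
      rcases Nat.eq_zero_or_pos p with h | h
      · rw [h, Nat.cast_zero, zero_div] at hlt; linarith
      · exact h
    have hpq : (1 : ℚ) ≤ p := by exact_mod_cast hp
    have hD2 : (2 : ℚ) ≤ D := by
      have : 2 ≤ D := by omega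
      exact_mod_cast this
    have hDq : (1 : ℚ) ≤ (D : ℚ) * q := by nlinarith
    have hx : (1 : ℚ) / q ≤ p / q := by gcongr
    rcases le_or_gt (∑ m ∈ T, (1 / m : ℚ)) ((p : ℚ) / q / 2) with hcase | hcase
    · have h1 : (1 : ℚ) / ((D : ℚ) * q) ^ (2 ^ (n + 1)) ≤ 1 / ((D : ℚ) * q) := by
        apply one_div_le_one_div_of_le (by linarith)
        exact le_self_pow₀ hDq (by positivity)
      have h2 : (1 : ℚ) / ((D : ℚ) * q) ≤ 1 / (2 * q) := by
        apply one_div_le_one_div_of_le (by linarith)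
        gcongr
      have h3 : (1 : ℚ) / (2 * q) = 1 / q / 2 := by
        field_simp
      linarith
    · have hne : T.Nonempty := by
        rw [← card_pos, hT]; omega
      obtain ⟨m, hm, hmin⟩ : ∃ m ∈ T, ∀ m' ∈ T, m ≤ m' :=
        ⟨T.min' hne, T.min'_mem hne, fun m' hm' => T.min'_le m' hm'⟩
      have hm0 : 0 < m := hpos m hm
      have hmq : (0 : ℚ) < m := by exact_mod_cast hm0
      have hsum : ∑ m' ∈ T, (1 / m' : ℚ) ≤ (n + 1) / m := by
        calc ∑ m' ∈ T, (1 / m' : ℚ) ≤ ∑ m' ∈ T, (1 / m : ℚ) := by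
              refine sum_le_sum fun m' hm' => ?_
              have : (m : ℚ) ≤ m' := by exact_mod_cast hmin m' hm'
              exact one_div_le_one_div_of_le hmq this
          _ = (n + 1) / m := by
              rw [sum_const, hT, nsmul_eq_mul]; push_cast; ring
      have hmle : (m : ℚ) ≤ D * q := by
        have h1 : (1 : ℚ) / q / 2 < (n + 1) / m := by linarith
        rw [div_div, div_lt_div_iff₀ (by linarith) hmq] at h1
        have h2 : (2 : ℚ) * (n + 1) ≤ D := by exact_mod_cast hn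
        nlinarith
      -- remove the smallest element
      have hsplit : ∑ m' ∈ T, (1 / m' : ℚ) = 1 / m + ∑ m' ∈ T.erase m, (1 / m' : ℚ) :=
        (add_sum_erase T (fun m' => (1 / m' : ℚ)) hm).symm
      have hnn' : 0 ≤ ∑ m' ∈ T.erase m, (1 / m' : ℚ) := sum_nonneg fun m _ => by positivity
      have hlt1 : (1 : ℚ) / m < p / q := by linarith
      have hqpm : q < p * m := by
        rw [div_lt_div_iff₀ hmq (by linarith)] at hlt1
        have : (q : ℚ) < p * m := by linarith
        exact_mod_cast this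
      have hcast : ((p * m - q : ℕ) : ℚ) = p * m - q := by
        rw [Nat.cast_sub hqpm.le]; push_cast; ring
      have hfrac : ((p * m - q : ℕ) : ℚ) / ((q * m : ℕ) : ℚ) = p / q - 1 / m := by
        rw [hcast]; push_cast; field_simp
      have h5 := ih (by omega) (T.erase m) (by rw [card_erase_of_mem hm, hT]; rfl)
        (fun m' hm' => hpos m' (mem_of_mem_erase hm')) (p * m - q) (q * m)
        (Nat.mul_pos hq hm0) (by rw [hfrac]; linarith)
      rw [hfrac] at h5
      have h6 : (1 : ℚ) / ((D : ℚ) * q) ^ (2 ^ (n + 1)) ≤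
          1 / ((D : ℚ) * ((q * m : ℕ) : ℚ)) ^ (2 ^ n) := by
        apply one_div_le_one_div_of_le (by positivity)
        have e : ((D : ℚ) * q) ^ (2 ^ (n + 1)) = (((D : ℚ) * q) * (D * q)) ^ (2 ^ n) := by
          rw [← sq, ← pow_mul]; congr 1; ring
        rw [e]
        apply pow_le_pow_left₀ (by positivity)
        push_cast
        calc (D : ℚ) * (q * m) = (D * q) * m := by ring
          _ ≤ (D * q) * (D * q) := by gcongr
      linarith

lemma lower_nat {b : ℕ} (hb : 2 ≤ b) {T : Finset ℕ} (hT : IsExpansion (b - 1) b T) :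
    1 ≤ T.card ∧ b ≤ (2 * T.card) ^ (2 ^ T.card) := by
  have hbq : (2 : ℚ) ≤ b := by exact_mod_cast hb
  obtain ⟨h1, h2⟩ := hT
  have hcast : ((b - 1 : ℕ) : ℚ) = b - 1 := by
    rw [Nat.cast_sub (by omega)]; push_cast; ring
  rw [hcast] at h2
  have hk : 1 ≤ T.card := by
    rw [Nat.one_le_iff_ne_zero]
    intro h0
    rw [card_eq_zero] at h0
    rw [h0, sum_empty] at h2
    have : (0 : ℚ) < (b - 1) / b := div_pos (by linarith) (by linarith)
    linarith
  refine ⟨hk, ?_⟩
  have hlt : ∑ m ∈ T, (1 / m : ℚ) < ((1 : ℕ) : ℚ) / ((1 : ℕ) : ℚ) := by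
    rw [h2, Nat.cast_one, div_one, div_lt_one (by linarith)]; linarith
  have h3 := gap (D := 2 * T.card) (by omega) T.card le_rfl T rfl
    (fun m hm => by have := h1 m hm; omega) 1 1 one_pos hlt
  rw [h2] at h3
  have e : ((1 : ℕ) : ℚ) / ((1 : ℕ) : ℚ) - ((b : ℚ) - 1) / b = 1 / b := by
    field_simp; ring
  rw [e, Nat.cast_one, mul_one] at h3
  have hDpos : (0 : ℚ) < ((2 * T.card : ℕ) : ℚ) := by
    have : 0 < 2 * T.card := by omega
    exact_mod_cast this
  rw [one_div_le_one_div (by positivity) (by linarith)] at h3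
  exact_mod_cast h3

lemma lower_log {b k : ℕ} (hk : 1 ≤ k) (hb : 3 ≤ b) (h : b ≤ (2 * k) ^ (2 ^ k)) :
    Real.log (Real.log b) ≤ 3 * k := by
  have hkr : (1 : ℝ) ≤ k := by exact_mod_cast hk
  have hbr : (3 : ℝ) ≤ b := by exact_mod_cast hb
  have hlogb : 0 < Real.log b := Real.log_pos (by linarith)
  have h2k : (2 : ℝ) ≤ 2 * k := by linarith
  have hl2k : 0 < Real.log (2 * k) := Real.log_pos (by linarith)
  have h1 : Real.log b ≤ 2 ^ k * Real.log (2 * k) := by
    have : (b : ℝ) ≤ (2 * k) ^ (2 ^ k) := by exact_mod_cast h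
    calc Real.log b ≤ Real.log ((2 * (k : ℝ)) ^ (2 ^ k)) := Real.log_le_log (by linarith) this
      _ = 2 ^ k * Real.log (2 * k) := by rw [Real.log_pow]; push_cast; ring
  have h2 : Real.log (Real.log b) ≤ k * Real.log 2 + Real.log (Real.log (2 * k)) := by
    calc Real.log (Real.log b) ≤ Real.log (2 ^ k * Real.log (2 * k)) := Real.log_le_log hlogb h1
      _ = k * Real.log 2 + Real.log (Real.log (2 * k)) := by
          rw [Real.log_mul (by positivity) hl2k.ne', Real.log_pow]
  have h3 : Real.log (Real.log (2 * k)) ≤ Real.log (2 * k) - 1 :=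
    Real.log_le_sub_one_of_pos hl2k
  have h4 : Real.log (2 * k) ≤ 2 * k - 1 := Real.log_le_sub_one_of_pos (by linarith)
  have h5 : Real.log 2 < 1 := by have := Real.log_two_lt_d9; linarith
  have h6 : k * Real.log 2 ≤ k := by nlinarith
  linarith

/-- The lower bound `N(b) ≥ N(b - 1, b) ≥ (log log b) / 3` (Erdős 1950). -/
theorem lower {b : ℕ} (hb : 3 ≤ b)
    (hatt : ∃ T : Finset ℕ, T.card = Nab (b - 1) b ∧ IsExpansion (b - 1) b T) :
    1 / 3 * Real.log (Real.log b) ≤ (Nmax b : ℝ) := by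
  obtain ⟨T, hT1, hT2⟩ := hatt
  obtain ⟨h1, h2⟩ := lower_nat (by omega) hT2
  have h3 := lower_log h1 hb h2
  have h4 : T.card ≤ Nmax b := by
    rw [hT1]
    exact Finset.le_sup (f := fun a => Nab a b) (mem_Ico.2 ⟨by omega, by omega⟩)
  have h5 : (T.card : ℝ) ≤ Nmax b := by exact_mod_cast h4
  linarith

end Vale.Agent.Egypt2
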