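import Vale.Agent.Egypt2.ChainU
import Vale.Agent.Egypt2.Dist
import Vale.Agent.Egypt2.AssembleU
import Vale.Agent.Egypt.Statement

namespace Vale.Agent.Egypt2

open Finset Filter Vale.Agent.Egypt

/-- The quantitative statement in terms of `L`. -/
theorem expansionU {L : ℕ} (hL : 100 ≤ L) {a b : ℕ} (ha : 1 ≤ a) (hab : a < b)
    (hb : b ≤ 2 ^ (2 ^ L)) : ∃ T : Finset ℕ, T.card ≤ 2400 * L ∧
      (∀ n ∈ T, 2 ≤ n) ∧ ∑ n ∈ T, (1 / n : ℚ) = a / b := by
  obtain ⟨P, hP⟩ := exists_pool (L := L) (by omega)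
  have hPp : ∀ p ∈ P, p.Prime := fun p hp => (hP.2 p hp).1
  have hW : 0 < prd P := prd_pos hPp
  have hR : 1 ≤ prd P ^ 5 := Nat.one_le_iff_ne_zero.2 (by positivity)
  have hRle : prd P ^ 5 ≤ 2 ^ (15 * L * 2 ^ L) := by
    have h1 : prd P ≤ (2 ^ (3 * L)) ^ (2 ^ L) := prd_le (fun p hp => (hP.2 p hp).2) hP.1
    calc prd P ^ 5 ≤ ((2 ^ (3 * L)) ^ (2 ^ L)) ^ 5 := Nat.pow_le_pow_left h1 5
      _ = 2 ^ (15 * L * 2 ^ L) := by rw [← pow_mul, ← pow_mul]; congr 1; ring
  obtain ⟨G, hG, hrep⟩ := chainU hL hP (120 * L + 2)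
  set l := Nat.clog 2 (15 * L) with hl
  have hl1 : 15 * L ≤ 2 ^ l := Nat.le_pow_clog (by norm_num) _
  have hl2 : 2 ^ l ≤ 30 * L := by
    have h1 : 2 ^ (l.pred) < 15 * L := Nat.pow_pred_clog_lt_self (by norm_num) (by omega)
    have h2 : 0 < l := Nat.clog_pos (by norm_num) (by omega)
    obtain ⟨l', hl'⟩ : ∃ l', l = l' + 1 := ⟨l - 1, by omega⟩
    rw [hl', Nat.pred_succ] at h1
    rw [hl', pow_succ]
    omega
  have hlL : l ≤ L := by
    have h30 : 30 * L ≤ 2 ^ L := by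
      have key : ∀ n, 60 ≤ n → 30 * n ≤ 2 ^ n := by
        intro n hn
        induction n, hn using Nat.le_induction with
        | base => norm_num
        | succ n hn ih => rw [pow_succ]; omega
      exact key L (by omega)
    exact (Nat.pow_le_pow_iff_right (by norm_num)).1 (hl2.trans h30)
  have hRj : prd P ^ 5 ≤ 2 ^ (2 ^ (L + l)) := by
    refine hRle.trans (Nat.pow_le_pow_right (by norm_num) ?_)
    rw [pow_add]
    calc 15 * L * 2 ^ L ≤ 2 ^ l * 2 ^ L := Nat.mul_le_mul_right _ hl1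
      _ = 2 ^ L * 2 ^ l := by ring
  have hGb : b * 2 ^ (2 ^ (L + l + 1)) ≤ G := by
    refine le_trans ?_ hG
    have e : (120 * L + 2) * 2 ^ (L - 1) = 2 ^ L * (1 + 60 * L) := by
      obtain ⟨L', rfl⟩ : ∃ L', L = L' + 1 := ⟨L - 1, by omega⟩
      rw [Nat.add_sub_cancel, pow_succ]; ring
    rw [e]
    calc b * 2 ^ (2 ^ (L + l + 1)) ≤ 2 ^ (2 ^ L) * 2 ^ (60 * L * 2 ^ L) := by
          refine Nat.mul_le_mul hb (Nat.pow_le_pow_right (by norm_num) ?_)
          rw [pow_succ, pow_add]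
          calc 2 ^ L * 2 ^ l * 2 ≤ 2 ^ L * (30 * L) * 2 := by gcongr
            _ = 60 * L * 2 ^ L := by ring
      _ = 2 ^ (2 ^ L * (1 + 60 * L)) := by rw [← pow_add]; congr 1; ring
  have hx1 : (a : ℚ) / b < 1 := by
    have hbq : (0 : ℚ) < b := by exact_mod_cast (by omega : 0 < b)
    rw [div_lt_one hbq]; exact_mod_cast hab
  obtain ⟨T, hT1, hT2, hT3⟩ := distinct hx1 (assembleU hR hRj hGb hrep ha hab)
  refine ⟨T, ?_, hT2, hT3⟩
  omega

lemma L_boundU {b : ℕ} (hb : 100 ≤ Real.log (Real.log b)) :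
    ∃ L : ℕ, 100 ≤ L ∧ b ≤ 2 ^ (2 ^ L) ∧ (L : ℝ) ≤ 2 * Real.log (Real.log b) := by
  set x := Real.log (Real.log b) with hx
  have hlogb : 100 < Real.log b := by
    by_contra hcon
    push Not at hcon
    have h1 : x ≤ Real.log 100 := by
      rcases le_or_gt (Real.log b) 0 with h0 | h0
      · have hb0 : 0 ≤ Real.log (b : ℝ) := Real.log_natCast_nonneg b
        have : Real.log (b : ℝ) = 0 := le_antisymm h0 hb0
        rw [hx, this, Real.log_zero]
        exact Real.log_nonneg (by norm_num)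
      · exact Real.log_le_log h0 hcon
    have h2 : Real.log 100 ≤ 100 - 1 := Real.log_le_sub_one_of_pos (by norm_num)
    linarith
  have hbpos : (0 : ℝ) < b := by
    by_contra hcon
    push Not at hcon
    have : (b : ℝ) = 0 := le_antisymm hcon (Nat.cast_nonneg b)
    rw [this, Real.log_zero] at hlogb
    linarith
  have hb1 : 1 < b := by
    by_contra hcon
    push Not at hcon
    have h1 : (b : ℝ) ≤ 1 := by exact_mod_cast hcon
    have : Real.log b ≤ 0 := Real.log_nonpos hbpos.le h1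
    linarith
  have hl2 : (0.69 : ℝ) < Real.log 2 := by
    have := Real.log_two_gt_d9; linarith
  have hl2' : Real.log 2 < 1 := by
    have := Real.log_two_lt_d9; linarith
  set c := Nat.clog 2 b with hc
  have hbc : b ≤ 2 ^ c := Nat.le_pow_clog (by norm_num) b
  have hc1 : 2 ^ (c.pred) < b := Nat.pow_pred_clog_lt_self (by norm_num) hb1
  have hcpos : 0 < c := Nat.clog_pos (by norm_num) hb1
  have hcr : (c : ℝ) ≤ 2 * Real.log b := by
    obtain ⟨c', hc'⟩ : ∃ c', c = c' + 1 := ⟨c - 1, by omega⟩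
    rw [hc', Nat.pred_succ] at hc1
    have h1 : (c' : ℝ) * Real.log 2 ≤ Real.log b := by
      rw [← Real.log_pow]
      apply Real.log_le_log (by positivity)
      exact_mod_cast hc1.le
    have h2 : (c : ℝ) = c' + 1 := by exact_mod_cast hc'
    rw [h2]
    nlinarith
  have hc2 : 1 < c := by
    by_contra hcon
    push Not at hcon
    have h1 : b ≤ 2 ^ 1 := hbc.trans (Nat.pow_le_pow_right (by norm_num) hcon)
    have h2 : (b : ℝ) ≤ 2 := by exact_mod_cast h1
    have : Real.log b ≤ Real.log 2 := Real.log_le_log hbpos h2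
    linarith
  set l := Nat.clog 2 c with hl
  have hcl : c ≤ 2 ^ l := Nat.le_pow_clog (by norm_num) c
  have hl1 : 2 ^ (l.pred) < c := Nat.pow_pred_clog_lt_self (by norm_num) hc2
  have hlpos : 0 < l := Nat.clog_pos (by norm_num) hc2
  have hlr : (l : ℝ) ≤ 2 * x := by
    obtain ⟨l', hl'⟩ : ∃ l', l = l' + 1 := ⟨l - 1, by omega⟩
    rw [hl', Nat.pred_succ] at hl1
    have hcR : (0 : ℝ) < c := by exact_mod_cast hcpos
    have h1 : (l' : ℝ) * Real.log 2 ≤ Real.log c := by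
      rw [← Real.log_pow]
      apply Real.log_le_log (by positivity)
      exact_mod_cast hl1.le
    have h3 : Real.log c ≤ Real.log 2 + x := by
      rw [hx, ← Real.log_mul (by norm_num) (by linarith)]
      exact Real.log_le_log hcR hcr
    have h2 : (l : ℝ) = l' + 1 := by exact_mod_cast hl'
    rw [h2]
    nlinarith
  refine ⟨max 100 l, le_max_left _ _, ?_, ?_⟩
  · refine hbc.trans (Nat.pow_le_pow_right (by norm_num) ?_)
    exact hcl.trans (Nat.pow_le_pow_right (by norm_num) (le_max_right _ _))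
  · push_cast
    apply max_le _ hlr
    linarith

lemma card_boundU {a b : ℕ} (hb : 100 ≤ Real.log (Real.log b)) (ha : 1 ≤ a) (hab : a < b) :
    ∃ T : Finset ℕ, IsExpansion a b T ∧ (T.card : ℝ) ≤ 4800 * Real.log (Real.log b) := by
  obtain ⟨L, hL, hbL, hLx⟩ := L_boundU hb
  obtain ⟨T, h1, h2, h3⟩ := expansionU hL ha hab hbL
  refine ⟨T, ⟨h2, h3⟩, ?_⟩
  have h4 : (T.card : ℝ) ≤ 2400 * L := by exact_mod_cast h1
  linarith

theorem mainU : ∃ C : ℝ, ∃ b₀ : ℕ, ∀ b ≥ b₀,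
    (Nmax b : ℝ) ≤ C * Real.log (Real.log b) ∧
    ∀ a, 1 ≤ a → a < b → 1 ≤ Nab a b ∧
      ∃ T : Finset ℕ, T.card = Nab a b ∧ IsExpansion a b T := by
  have htend : Tendsto (fun b : ℕ => Real.log (Real.log (b : ℝ))) atTop atTop :=
    Real.tendsto_log_atTop.comp (Real.tendsto_log_atTop.comp tendsto_natCast_atTop_atTop)
  obtain ⟨b₀, hb₀⟩ := eventually_atTop.1 (htend.eventually_ge_atTop 100)
  refine ⟨4800, b₀, fun b hb => ?_⟩
  have hb60 := hb₀ b hb
  have hex : ∀ a, 1 ≤ a → a < b → ∃ T : Finset ℕ, 1 ≤ T.card ∧ IsExpansion a b T ∧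
      (T.card : ℝ) ≤ 4800 * Real.log (Real.log b) := by
    intro a ha hab
    obtain ⟨T, hT1, hT2⟩ := card_boundU hb60 ha hab
    refine ⟨T, ?_, hT1, hT2⟩
    rw [Nat.one_le_iff_ne_zero]
    intro h0
    rw [card_eq_zero] at h0
    have h1 := hT1.2
    rw [h0, sum_empty] at h1
    have haq : (0 : ℚ) < a := by exact_mod_cast ha
    have hbq : (0 : ℚ) < b := by exact_mod_cast (by omega : 0 < b)
    have : (0 : ℚ) < a / b := by positivity
    linarith
  have hspec : ∀ a, 1 ≤ a → a < b → 1 ≤ Nab a b ∧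
      ∃ T : Finset ℕ, T.card = Nab a b ∧ IsExpansion a b T := by
    intro a ha hab
    obtain ⟨T, hT1, hT2, -⟩ := hex a ha hab
    have hne : {k : ℕ | 1 ≤ k ∧ ∃ T : Finset ℕ, T.card = k ∧ IsExpansion a b T}.Nonempty :=
      ⟨T.card, hT1, T, rfl, hT2⟩
    exact Nat.sInf_mem hne
  refine ⟨?_, hspec⟩
  have hnn : 0 ≤ 4800 * Real.log (Real.log b) := by
    have h2 : 0 ≤ Real.log (Real.log b) := by linarith
    positivity
  have hle : Nmax b ≤ ⌊4800 * Real.log (Real.log b)⌋₊ := by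
    unfold Nmax
    refine Finset.sup_le fun a ha => ?_
    rw [mem_Ico] at ha
    obtain ⟨T, hT1, hT2, hT3⟩ := hex a ha.1 ha.2
    have h1 : Nab a b ≤ T.card := Nat.sInf_le ⟨hT1, T, rfl, hT2⟩
    exact h1.trans (Nat.le_floor hT3)
  exact (Nat.cast_le.2 hle).trans (Nat.floor_le hnn)

end Vale.Agent.Egypt2
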