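import Vale.Agent.Egypt2.Base
import Vale.Agent.Egypt.Chain
import Vale.Agent.Egypt.Assemble

namespace Vale.Agent.Egypt2

open Finset Vale.Agent.Egypt

lemma exists_pool {L : ℕ} (hL : 60 ≤ L) : ∃ P, Pool L P := by
  obtain ⟨P, h1, h2, h3, -⟩ := exists_P hL
  exact ⟨P 0, h3 0, fun p hp => ⟨h1 0 p hp, h2 0 p hp⟩⟩

theorem many_good {L j : ℕ} {P : Finset ℕ} (hL : 100 ≤ L) (hj : j < L) (hP : Pool L P) :
    ∃ (X : ℕ) (S : Finset ℕ), (2 ^ L).choose (2 ^ j) ≤ X ∧ X ≤ ((2 ^ L).choose (2 ^ j)) ^ 2 ∧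
      X ≤ 2 ^ (L + 2) * S.card ∧ ∀ q ∈ S, Good L j P q ∧ q ≤ X := by
  obtain ⟨hPc, hPpy⟩ := hP
  obtain ⟨hK1, hKL, hKu⟩ := level_K hj
  have hKle : (2 ^ L).choose (2 ^ j) ≤ 2 ^ (2 ^ L) := Nat.choose_le_two_pow _ _
  unfold Good
  obtain ⟨K, hK⟩ : ∃ K, K = (2 ^ L).choose (2 ^ j) := ⟨_, rfl⟩
  rw [← hK] at hK1 hKL hKu hKle ⊢
  have hKpos : 0 < K := lt_of_lt_of_le (by positivity) hKL
  obtain ⟨κ, hκ⟩ : ∃ κ, κ = Nat.log 2 K := ⟨_, rfl⟩
  have hκ1 : 2 ^ κ ≤ K := by rw [hκ]; exact Nat.pow_log_le_self 2 hKpos.ne'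
  have hκ2 : K < 2 ^ (κ + 1) := by rw [hκ]; exact Nat.lt_pow_succ_log_self (by norm_num) K
  have hκL : L ≤ κ := by rw [hκ]; exact (Nat.le_log_iff_pow_le (by norm_num) hKpos.ne').2 hKL
  have hκt : κ ≤ 2 ^ L := (Nat.pow_le_pow_iff_right (by norm_num)).1 (hκ1.trans hKle)
  have hnum := num_aux (κ := κ) (by omega)
  obtain ⟨ω, hω⟩ : ∃ ω, ω = (κ - 5) / 3 := ⟨_, rfl⟩
  rw [← hω] at hnum
  have hω1 : 1 ≤ ω := by omega
  have hω3 : 3 * ω + 5 ≤ κ := by omega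
  obtain ⟨n, hn⟩ : ∃ n, n = K * 2 ^ (ω - 1) := ⟨_, rfl⟩
  have hn1 : 1 ≤ n := by rw [hn]; exact Nat.one_le_iff_ne_zero.2 (by positivity)
  have h2n : 2 * n = K * 2 ^ ω := by
    rw [hn, ← mul_assoc, mul_comm 2 K, mul_assoc]
    congr 1
    rw [← pow_succ']
    congr 1
    omega
  have hXe : 2 * n ≤ 2 ^ (2 * κ) := by
    rw [h2n]
    calc K * 2 ^ ω ≤ 2 ^ (κ + 1) * 2 ^ ω := by gcongr
      _ = 2 ^ (κ + 1 + ω) := by rw [← pow_add]
      _ ≤ 2 ^ (2 * κ) := Nat.pow_le_pow_right (by norm_num) (by omega)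
  have hsup := prime_supply hn1 hXe
  obtain ⟨Pr, hPr⟩ : ∃ Pr, Pr = (range (2 * n + 1)).filter Nat.Prime := ⟨_, rfl⟩
  rw [← hPr] at hsup
  set Cand := Pr.filter (fun Q => K < Q) with hCand
  have hC : ∀ Q ∈ Cand, Q.Prime ∧ K < Q := by
    intro Q hQ
    rw [hCand, mem_filter, hPr, mem_filter, mem_range] at hQ
    exact ⟨hQ.1.2, hQ.2⟩
  have hCX : ∀ Q ∈ Cand, Q ≤ 2 * n := by
    intro Q hQ
    rw [hCand, mem_filter, hPr, mem_filter, mem_range] at hQ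
    omega
  set Bad := Cand.filter
    (fun Q => 2 * ((P.powersetCard (2 ^ j)).image (fun A => prd A % Q)).card < K) with hBad
  have hBadc : Bad.card ≤ 3 * L * K :=
    bad_card hKu (fun p hp => (hPpy p hp).1) (fun p hp => (hPpy p hp).2) (by rw [hPc, hK]) hC
  have hCand1 : Pr.card ≤ Cand.card + K := by
    have h1 : Pr ⊆ Cand ∪ (Pr.filter (fun Q => ¬ K < Q)) := by
      intro Q hQ
      by_cases h : K < Q
      · exact mem_union_left _ (mem_filter.2 ⟨hQ, h⟩)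
      · exact mem_union_right _ (mem_filter.2 ⟨hQ, h⟩)
    have h2 : (Pr.filter (fun Q => ¬ K < Q)).card ≤ K := by
      have h3 : (Pr.filter (fun Q => ¬ K < Q)) ⊆ Finset.Icc 1 K := by
        intro Q hQ
        rw [mem_filter, hPr, mem_filter] at hQ
        rw [mem_Icc]
        exact ⟨hQ.1.2.one_lt.le, by omega⟩
      calc _ ≤ (Finset.Icc 1 K).card := card_le_card h3
        _ = K := by simp
    exact (card_le_card h1).trans ((card_union_le _ _).trans (by omega))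
  have hS : Cand.card ≤ ((Cand \ P) \ Bad).card + 2 ^ L + 3 * L * K := by
    have h1 := card_sdiff_add_card (Cand) P
    have h2 := card_sdiff_add_card (Cand \ P) Bad
    have h3 : Cand.card ≤ (Cand ∪ P).card := card_le_card subset_union_left
    have h4 : (Cand \ P).card ≤ ((Cand \ P) ∪ Bad).card := card_le_card subset_union_left
    omega
  refine ⟨2 * n, (Cand \ P) \ Bad, ?_, ?_, ?_, ?_⟩
  · rw [h2n]
    exact Nat.le_mul_of_pos_right _ (by positivity)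
  · rw [h2n, sq]
    refine Nat.mul_le_mul_left _ (le_trans (Nat.pow_le_pow_right (by norm_num) ?_) hκ1)
    omega
  · obtain ⟨s, hs⟩ : ∃ s, s = ((Cand \ P) \ Bad).card := ⟨_, rfl⟩
    rw [← hs] at hS ⊢
    have e1 : Pr.card + 1 ≤ s + 4 * (κ * K) := by
      have h1 : 3 * L * K ≤ 3 * (κ * K) := by
        have : L * K ≤ κ * K := Nat.mul_le_mul_right _ hκL
        calc 3 * L * K = 3 * (L * K) := by ring
          _ ≤ _ := by omega
      have h2 : 3 * K ≤ κ * K := Nat.mul_le_mul_right _ (by omega)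
      omega
    have e2 : 2 * n ≤ 2 * κ * s + 8 * (κ ^ 2 * K) := by
      calc 2 * n ≤ 2 * κ * (Pr.card + 1) := hsup
        _ ≤ 2 * κ * (s + 4 * (κ * K)) := Nat.mul_le_mul_left _ e1
        _ = _ := by ring
    have e3 : 36 * (κ ^ 2 * K) ≤ 2 * n := by
      rw [h2n]
      calc 36 * (κ ^ 2 * K) = K * (36 * κ ^ 2) := by ring
        _ ≤ K * 2 ^ ω := Nat.mul_le_mul_left _ hnum.le
    have e4 : 2 * n ≤ 4 * (κ * s) := by
      have : 2 * κ * s = 2 * (κ * s) := by ring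
      omega
    have e5 : κ * s ≤ 2 ^ L * s := Nat.mul_le_mul_right _ hκt
    calc 2 * n ≤ 4 * (κ * s) := e4
      _ ≤ 4 * (2 ^ L * s) := by omega
      _ = 2 ^ (L + 2) * s := by rw [pow_add]; ring
  · intro q hq
    rw [mem_sdiff, mem_sdiff] at hq
    obtain ⟨⟨hqC, hqP⟩, hqB⟩ := hq
    refine ⟨⟨(hC q hqC).1, hqP, ?_, ?_⟩, hCX q hqC⟩
    · have h1 : q ≤ K * 2 ^ ω := by rw [← h2n]; exact hCX q hqC
      calc 16 * q ^ 3 ≤ 16 * (K * 2 ^ ω) ^ 3 := by gcongr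
        _ = K ^ 3 * 2 ^ (3 * ω + 4) := by
            rw [mul_pow, ← pow_mul, pow_add, mul_comm ω 3]; ring
        _ < K ^ 3 * 2 ^ κ := by
            have : 2 ^ (3 * ω + 4) < 2 ^ κ := Nat.pow_lt_pow_right (by norm_num) (by omega)
            gcongr
        _ ≤ K ^ 3 * K := by gcongr
        _ = K ^ 4 := by ring
    · have h1 : ¬ 2 * ((P.powersetCard (2 ^ j)).image (fun A => prd A % q)).card < K :=
        fun h => hqB (by rw [hBad]; exact mem_filter.2 ⟨hqC, h⟩)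
      push Not at h1
      refine h1.trans (Nat.mul_le_mul_left _ ?_)
      have h2 : ((P.powersetCard (2 ^ j)).image (fun A => ((prd A : ℕ) : ZMod q))).image
          (fun z => z.val) = (P.powersetCard (2 ^ j)).image (fun A => prd A % q) := by
        rw [image_image]
        refine image_congr fun A _ => ?_
        simp only [Function.comp, ZMod.val_natCast]
      rw [← h2]
      exact card_image_le

lemma urep_of_dvd {d N : ℕ} (hN : 0 < N) (hd : d ∣ N) : URep 1 ((d : ℚ) / N) := by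
  have hd0 : 0 < N / d := Nat.div_pos (Nat.le_of_dvd hN hd) (Nat.pos_of_dvd_of_pos hd hN)
  have h := urep_one hd0
  rwa [recip_div hN hd] at h

theorem cheap {L j q : ℕ} {P : Finset ℕ} (hP : Pool L P) (hq : Good L j P q) :
    URep 3 ((q : ℚ) / (prd P : ℚ) ^ 4) := by
  obtain ⟨hPc, hPpy⟩ := hP
  obtain ⟨hqp, hqP, hq3, hcard⟩ := hq
  have hfact : Fact q.Prime := ⟨hqp⟩
  have hPp : ∀ p ∈ P, p.Prime := fun p hp => (hPpy p hp).1
  set I : Finset (ZMod q) := (P.powersetCard (2 ^ j)).image (fun A => ((prd A : ℕ) : ZMod q))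
    with hI
  have h0 : (0 : ZMod q) ∉ I := by
    intro h
    rw [hI] at h
    simp only [mem_image, mem_powersetCard] at h
    obtain ⟨A, ⟨hA, -⟩, hA0⟩ := h
    rw [ZMod.natCast_eq_zero_iff] at hA0
    exact not_dvd_prd hqp (fun p hp => hPp p (hA hp)) (fun h => hqP (hA h)) hA0
  have hbig : q ^ 3 < (I.card * I.card) * (I.card * I.card) := by
    have h1 : ((2 ^ L).choose (2 ^ j)) ^ 4 ≤ (2 * I.card) ^ 4 := Nat.pow_le_pow_left hcard 4
    have h2 : (2 * I.card) ^ 4 = 16 * ((I.card * I.card) * (I.card * I.card)) := by ring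
    rw [h2] at h1
    omega
  have hc : (-1 : ZMod q) ≠ 0 := neg_ne_zero.2 one_ne_zero
  obtain ⟨s1, hs1, t1, ht1, s2, hs2, t2, ht2, heq⟩ := incidence I I I I h0 hc hbig
  rw [hI] at hs1 ht1 hs2 ht2
  simp only [mem_image, mem_powersetCard] at hs1 ht1 hs2 ht2
  obtain ⟨A0, ⟨hA0, -⟩, rfl⟩ := hs1
  obtain ⟨A1, ⟨hA1, -⟩, rfl⟩ := ht1
  obtain ⟨A2, ⟨hA2, -⟩, rfl⟩ := hs2
  obtain ⟨A3, ⟨hA3, -⟩, rfl⟩ := ht2
  have hdvd : q ∣ prd A0 * prd A1 + prd A2 * prd A3 + 1 := by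
    rw [← ZMod.natCast_eq_zero_iff]
    push_cast
    rw [heq]; ring
  obtain ⟨f, hf⟩ := hdvd
  have hf0 : 0 < f := by
    rcases Nat.eq_zero_or_pos f with h | h
    · rw [h] at hf; omega
    · exact h
  have hW : 0 < prd P := prd_pos hPp
  have hN : 0 < prd P ^ 4 := Nat.pow_pos hW
  have hd : ∀ A B : Finset ℕ, A ⊆ P → B ⊆ P → prd A * prd B ∣ prd P ^ 4 := by
    intro A B hA hB
    calc prd A * prd B ∣ prd P * prd P :=
          mul_dvd_mul (prd_dvd_of_subset hA) (prd_dvd_of_subset hB)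
      _ ∣ prd P ^ 4 := ⟨prd P ^ 2, by ring⟩
  have h1 := urep_div hf0 (urep_of_dvd hN (hd A0 A1 hA0 hA1))
  have h2 := urep_div hf0 (urep_of_dvd hN (hd A2 A3 hA2 hA3))
  have h3 := urep_div hf0 (urep_of_dvd hN (one_dvd _))
  have h4 := urep_add (urep_add h1 h2) h3
  have hfq : (f : ℚ) ≠ 0 := by exact_mod_cast hf0.ne'
  have hWq : (prd P : ℚ) ≠ 0 := by exact_mod_cast hW.ne'
  have hfc : ((prd A0 * prd A1 + prd A2 * prd A3 + 1 : ℕ) : ℚ) = q * f := by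
    rw [hf]; push_cast; ring
  have e : ((prd A0 * prd A1 : ℕ) : ℚ) / ((prd P ^ 4 : ℕ) : ℚ) / f +
      ((prd A2 * prd A3 : ℕ) : ℚ) / ((prd P ^ 4 : ℕ) : ℚ) / f +
      ((1 : ℕ) : ℚ) / ((prd P ^ 4 : ℕ) : ℚ) / f = (q : ℚ) / (prd P : ℚ) ^ 4 := by
    rw [← add_div, ← add_div, ← add_div, ← add_div]
    rw [← Nat.cast_add, ← Nat.cast_add, hfc]
    push_cast
    field_simp
  rw [e] at h4
  exact h4

end Vale.Agent.Egypt2
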